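import Vale.Agent.P235.K5.Wagner

set_option autoImplicit false

/-!
# P235-K5, Wagner: row (W1), spanning models (helper829)
-/

namespace Vale.Agent.P235.K5.W.H829

open SimpleGraph Vale.Agent.P235.H134 Vale.Agent.P235.H56

/-- One vertex is connected. -/
theorem cn_single {V : Type} (G : SimpleGraph V) (v : V) : Cn G {v} := by
  have : Nonempty ({v} : Set V) := ⟨⟨v, rfl⟩⟩
  exact Connected.of_subsingleton

/-- The union of two adjacent connected sets is connected. -/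
theorem cn_union {V : Type} {G : SimpleGraph V} {X Y : Set V} (hX : Cn G X) (hY : Cn G Y)
    (h : Ad G X Y) : Cn G (X ∪ Y) := by
  obtain ⟨x, hx, y, hy, hxy⟩ := h
  have : Nonempty (X ∪ Y : Set V) := ⟨⟨x, Or.inl hx⟩⟩
  -- everything is reachable from `x`
  have hincX : ∀ z (hz : z ∈ X), (G.induce (X ∪ Y)).Reachable ⟨x, Or.inl hx⟩ ⟨z, Or.inl hz⟩ := by
    intro z hz
    obtain ⟨p⟩ := hX.preconnected ⟨x, hx⟩ ⟨z, hz⟩
    exact ⟨p.map (SimpleGraph.induceHomOfLE G (Set.subset_union_left (s := X) (t := Y))).toHom⟩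
  have hincY : ∀ z (hz : z ∈ Y), (G.induce (X ∪ Y)).Reachable ⟨y, Or.inr hy⟩ ⟨z, Or.inr hz⟩ := by
    intro z hz
    obtain ⟨p⟩ := hY.preconnected ⟨y, hy⟩ ⟨z, hz⟩
    exact ⟨p.map (SimpleGraph.induceHomOfLE G (Set.subset_union_right (s := X) (t := Y))).toHom⟩
  have hxy' : (G.induce (X ∪ Y)).Reachable ⟨x, Or.inl hx⟩ ⟨y, Or.inr hy⟩ :=
    SimpleGraph.Adj.reachable (G := G.induce (X ∪ Y)) hxy
  have hall : ∀ w : (X ∪ Y : Set V), (G.induce (X ∪ Y)).Reachable ⟨x, Or.inl hx⟩ w := by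
    rintro ⟨w, hw | hw⟩
    · exact hincX w hw
    · exact hxy'.trans (hincY w hw)
  exact ⟨fun u v => (hall u).symm.trans (hall v)⟩

/-- An edge leaves every proper nonempty set. -/
theorem exists_edge {V : Type} {G : SimpleGraph V} (hG : G.Connected) {S : Set V} {u v : V}
    (hu : u ∈ S) (hv : v ∉ S) : ∃ x ∈ S, ∃ y, y ∉ S ∧ G.Adj x y := by
  obtain ⟨p⟩ := hG.preconnected u v
  obtain ⟨d, -, h1, h2⟩ := p.exists_boundary_dart S hu hv
  exact ⟨d.fst, h1, d.snd, h2, d.adj⟩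

/-- **(W1)** a minor of a connected graph has a spanning model. -/
theorem span : SpanStmt := by
  classical
  intro V W _ _ _ G H hG hm
  have key : ∀ (n : ℕ) (μ : W → Set V), (∀ a, Cn G (μ a)) → (∀ a b, a ≠ b → Disjoint (μ a) (μ b)) →
      (∀ a b, H.Adj a b → Ad G (μ a) (μ b)) → ((⋃ a, μ a)ᶜ : Set V).ncard = n →
      ∃ μ : W → Set V, Sp H G μ := by
    intro n
    induction n using Nat.strong_induction_on with
    | _ n ih =>
      intro μ h1 h2 h3 hn
      by_cases hc : ∀ x, ∃ a, x ∈ μ a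
      · exact ⟨μ, h1, h2, h3, hc⟩
      push Not at hc
      obtain ⟨v, hv⟩ := hc
      obtain ⟨a₁⟩ := (inferInstance : Nonempty W)
      obtain ⟨⟨u, hu⟩⟩ := (h1 a₁).nonempty
      obtain ⟨x, hx, y, hy, hxy⟩ := exists_edge hG (S := ⋃ a, μ a)
        (Set.mem_iUnion.2 ⟨a₁, hu⟩) (fun h => by
          obtain ⟨a, ha⟩ := Set.mem_iUnion.1 h
          exact hv a ha)
      obtain ⟨a₀, ha₀⟩ := Set.mem_iUnion.1 hx
      have hy' : ∀ a, y ∉ μ a := fun a ha => hy (Set.mem_iUnion.2 ⟨a, ha⟩)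
      obtain ⟨ν, hν⟩ : ∃ ν : W → Set V, ν = fun a => if a = a₀ then μ a ∪ {y} else μ a := ⟨_, rfl⟩
      have e0 : ν a₀ = μ a₀ ∪ {y} := by rw [hν]; simp
      have e1 : ∀ a, a ≠ a₀ → ν a = μ a := by
        intro a ha
        rw [hν]
        simp [ha]
      have hsub : ∀ a, μ a ⊆ ν a := by
        intro a
        by_cases ha : a = a₀
        · rw [ha, e0]
          exact Set.subset_union_left
        · rw [e1 a ha]
      refine ih ((⋃ a, ν a)ᶜ : Set V).ncard ?_ ν ?_ ?_ ?_ rfl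
      · rw [← hn]
        apply Set.ncard_lt_ncard _ (Set.toFinite _)
        refine ⟨fun z hz hz' => hz ?_, fun h => ?_⟩
        · obtain ⟨a, ha⟩ := Set.mem_iUnion.1 hz'
          exact Set.mem_iUnion.2 ⟨a, hsub a ha⟩
        · exact h (show y ∈ ((⋃ a, μ a)ᶜ : Set V) from hy)
            (Set.mem_iUnion.2 ⟨a₀, by rw [e0]; exact Or.inr rfl⟩)
      · intro a
        by_cases ha : a = a₀
        · rw [ha, e0]
          exact cn_union (h1 a₀) (cn_single G y) ⟨x, ha₀, y, rfl, hxy⟩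
        · rw [e1 a ha]
          exact h1 a
      · have hd : ∀ b, b ≠ a₀ → Disjoint (μ a₀ ∪ {y}) (μ b) := by
          intro b hb
          rw [Set.disjoint_union_left]
          exact ⟨h2 a₀ b (Ne.symm hb), Set.disjoint_singleton_left.2 (hy' b)⟩
        intro a b hab
        by_cases ha : a = a₀
        · have hb : b ≠ a₀ := fun h => hab (ha.trans h.symm)
          rw [ha, e0, e1 b hb]
          exact hd b hb
        · by_cases hb : b = a₀
          · rw [hb, e0, e1 a ha]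
            exact (hd a ha).symm
          · rw [e1 a ha, e1 b hb]
            exact h2 a b hab
      · intro a b hab
        obtain ⟨p, hp, q, hq, hpq⟩ := h3 a b hab
        exact ⟨p, hsub a hp, q, hsub b hq, hpq⟩
  obtain ⟨μ, h1, h2, h3⟩ := hm
  exact key _ μ h1 h2 h3 rfl

end Vale.Agent.P235.K5.W.H829
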